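import Crest.Agent.X262.Q74.Alg
import Crest.Agent.X262.Kah.BunB
import Crest.Agent.X262.Kah.FibB
import Crest.Agent.R275.FmCalc_96

/-!
# Row 262, COH (helper74): regular one-forms and holomorphic one-forms

* `IsH1 u`  : `u : FS A` is of type `(1,0)` and `∂̄`-closed;
* `fm X b : R1 →ₗ FS X.A`, injective with range the holomorphic one-forms; `finrank_eq`.
-/

set_option autoImplicit false

open Set Filter Topology Module
open scoped KaehlerDifferential ContDiff

noncomputable section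

namespace Crest.Agent.X262.Q74

open Crest.Agent.X277.Lef Crest.Agent.X277.AN.G1 Crest.Agent.X277.AN.G1.AnP
open Crest.Agent.R275.Geo Crest.Agent.R275.Core144
open Crest.Agent.R208.F Crest.Agent.R208.CW
open Crest.Agent.X262.Kah Crest.Agent.X262.Kah.Fib
open Crest.Agent.X262.Coh (sv)

section Fib

variable {n : ℕ}

/-- the coefficient of `dz a` -/
def co (a : Fin n) : Fb n →ₗ[ℂ] ℂ := au ∘ₗ iz a

theorem co_dz (a l : Fin n) : co a (dz l) = if a = l then 1 else 0 := by
  have h := congrArg au (ct_th (n := n) (.inl a) (.inl l))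
  rw [apply_ite au, au_one, map_zero] at h
  simpa [co] using h

theorem co_sum (k : Fin n → ℂ) (a : Fin n) : co a (∑ l, k l • dz l) = k a := by
  simp [co_dz]

theorem sum_co {x : Fb n} (hx : x ∈ Ty 1 0) : ∑ a, co a x • dz a = x := by
  have h := hx.1
  rw [Nz_apply, Nat.cast_one, one_smul] at h
  refine Eq.trans (Finset.sum_congr rfl fun a _ => ?_) h
  rw [Ty.eq_au (Ty.iz_mem a hx), mul_smul_comm, mul_one]
  rfl

theorem sum_dz_mem (k : Fin n → ℂ) : ∑ l, k l • dz l ∈ Ty 1 0 :=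
  Submodule.sum_mem _ fun l _ => Submodule.smul_mem _ _ (dz_mem l)

/-- the coefficients of a `∂̄`-closed form of type `(p,0)` are holomorphic -/
theorem pzbC_eq_zero {om : Cn n → Fb n} {z : Cn n} {p : ℕ} (h : CD 1 om z)
    (ht : ∀ᶠ y in 𝓝 z, om y ∈ Ty p 0) (h0 : dbC om z = 0) (a : Fin n) : pzbC a om z = 0 := by
  have h1 : ∀ l, izb a (pzbC l om z) = 0 := fun l => by
    rw [← pzbC_lin _ _ h, pzbC_congr l (η := fun _ => 0) (ht.mono fun y hy => Ty.izb_eq_zero a hy),
      pzbC_const]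
  have h2 := congrArg (izb a) h0
  simp only [dbC, map_sum, map_zero, ← th_inr, ← ct_inr, ct_th_mul] at h2
  simpa [h1] using h2

end Fib

section Atl

variable {n : ℕ} {M : Type} [TopologicalSpace M] {A : Atl n M}

/-- holomorphic one-forms -/
def IsH1 (u : FS A) : Prop :=
  (∀ i, ∀ z ∈ (A.e i).target, u.1 i z ∈ Ty 1 0) ∧ dbF A u = 0

theorem Dtr_I {i j : A.ι} {z : Cn n} (hz : z ∈ A.ov i j) (v : Cn n) :
    Dtr A i j z (Complex.I • v) = Complex.I • Dtr A i j z v := by
  rw [Dtr_eq hz]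
  exact map_smul (fderiv ℂ (tr A i j) z) Complex.I v

theorem pbC_sum_dz {i j : A.ι} {z : Cn n} (hz : z ∈ A.ov i j) (k : Fin n → ℂ) :
    pbC (Dtr A i j z) (∑ l, k l • dz l) =
      ∑ a, (∑ l, k l * A.J i j ((A.e i).symm z) l a) • dz a := by
  simp only [map_sum, pbC_smul, pbC_dz (Dtr_I hz), Finset.smul_sum, Finset.sum_smul, smul_smul]
  rw [Finset.sum_comm]
  refine Finset.sum_congr rfl fun a _ => Finset.sum_congr rfl fun l _ => ?_
  rw [Dtr_eq hz, Atl.J, (A.e i).right_inv hz.1]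
  rfl

theorem holAt_fun {u : FS A} {p : ℕ} (ht : ∀ i, ∀ z ∈ (A.e i).target, u.1 i z ∈ Ty p 0)
    (h0 : dbF A u = 0) (t : Fb n →ₗ[ℂ] ℂ) (i : A.ι) :
    HolAt A i univ fun x => t (u.1 i (A.e i x)) := fun z hz => by
  have hn := (A.e i).open_target.mem_nhds hz.1
  have h1 : DifferentiableAt ℂ (fun y => t (u.1 i y)) z :=
    R275.Fm96.differentiableAt_of_dbj ((CD_fun t (u.sm1 hz.1)).differentiableAt one_ne_zero)
      fun a => by
        rw [dbj_fun t a (u.sm1 hz.1), pzbC_eq_zero (u.sm1 hz.1) (mem_of_superset hn (ht i))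
          (by rw [← dbF_apply u hz.1, h0]; rfl), map_zero]
  refine (h1.congr_of_eventuallyEq ?_).differentiableWithinAt
  filter_upwards [hn] with y hy
  rw [(A.e i).right_inv hy]

end Atl

variable {F : Type} [Field F] [Algebra ℂ F] {P : PModel ℂ F} {n : ℕ} {X : AnP P n}
  (b : Basis (Fin n) F Ω[F⁄ℂ]) {c : X.A.ι → Fin n → Pts P → ℂ} {u : FS X.A} {i : X.A.ι} {z : Cn n}

theorem H1.sm (hc : H1 X c) (hz : z ∈ (X.A.e i).target) (a : Fin n) :
    ContDiffAt ℝ ∞ (fun w => c i a ((X.A.e i).symm w)) z :=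
  ((hc.hol i a).contDiffOn isOpen_univ).contDiffAt ((isOpen_ti isOpen_univ).mem_nhds ⟨hz, trivial⟩)

/-- the form with given coefficients -/
def H1.form (hc : H1 X c) : FS X.A :=
  FS.mk' (fun i z => ∑ a, c i a ((X.A.e i).symm z) • dz a)
    (fun _ _ hz => CD.sum fun a _ => CD_fsmul (hc.sm hz a) (CD.const _)) fun i j z hz => by
      rw [pbC_sum_dz hz, symm_tr hz]
      exact Finset.sum_congr rfl fun a _ => by
        rw [hc.tr i j _ ⟨(X.A.e i).map_target hz.1, hz.2⟩]

theorem H1.form_apply (hc : H1 X c) (hz : z ∈ (X.A.e i).target) :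
    hc.form.1 i z = ∑ a, c i a ((X.A.e i).symm z) • dz a := FS.mk'_apply hz

theorem H1.isH1 (hc : H1 X c) : IsH1 hc.form := by
  refine ⟨fun i z hz => hc.form_apply hz ▸ sum_dz_mem _, FS.ext' fun i z hz => ?_⟩
  rw [dbF_apply _ hz, H1.form, dbC_congr (FS.mk'_ev hz),
    dbC_sum _ fun a _ => CD_fsmul ((hc.sm hz a).of_le one_le_inf) (CD.const _)]
  refine Finset.sum_eq_zero fun a _ => ?_
  have h1 : DifferentiableAt ℂ (fun w => c i a ((X.A.e i).symm w)) z :=
    (hc.hol i a).differentiableAt ((isOpen_ti isOpen_univ).mem_nhds ⟨hz, trivial⟩)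
  rw [dbC_fsmul ((hc.sm hz a).of_le one_le_inf) (CD.const _), dbC_const]
  simp [R275.Fm96.dbj_hol h1]

theorem IsH1.h1 (h : IsH1 u) : H1 X fun i a x => co a (u.1 i (X.A.e i x)) where
  hol i a := holAt_fun h.1 h.2 (co a) i
  tr i j x hx a := by
    rw [u.tr' (Kah.mem_ov hx), tr_e hx.1, ← sum_co (h.1 j _ ((X.A.e j).map_source hx.2)),
      pbC_sum_dz (Kah.mem_ov hx), co_sum, (X.A.e i).left_inv hx.1]
    simp only [co_sum]

variable (X) in
/-- the holomorphic form of a regular one-form -/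
def fm : (sv P).R1 →ₗ[ℂ] FS X.A where
  toFun w := (h1_of_mem b w.2).form
  map_add' w η := FS.ext' fun i z hz => by
    have hx := (X.A.e i).map_target hz
    rw [FS.add_apply, H1.form_apply _ hz, H1.form_apply _ hz, H1.form_apply _ hz,
      ← Finset.sum_add_distrib]
    refine Finset.sum_congr rfl fun a _ => ?_
    rw [← add_smul, Submodule.coe_add, map_add]
    exact congrArg (· • dz a) ((X277.AN.G1.lp _).v_add ((mem_R1_iff b).1 w.2 i _ hx a)
      ((mem_R1_iff b).1 η.2 i _ hx a))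
  map_smul' r w := FS.ext' fun i z hz => by
    have hx := (X.A.e i).map_target hz
    rw [RingHom.id_apply, FS.smul_apply, H1.form_apply _ hz, H1.form_apply _ hz, Finset.smul_sum]
    refine Finset.sum_congr rfl fun a _ => ?_
    rw [smul_smul, Submodule.coe_smul, LinearMap.map_smul_of_tower, ev,
      LP.v_smul r ((mem_R1_iff b).1 w.2 i _ hx a)]

theorem fm_apply (w : (sv P).R1) (hz : z ∈ (X.A.e i).target) :
    (fm X b w).1 i z = ∑ a, ev (cf X b i a w.1) ((X.A.e i).symm z) • dz a :=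
  (h1_of_mem b w.2).form_apply hz

theorem isH1_fm (w : (sv P).R1) : IsH1 (fm X b w) := (h1_of_mem b w.2).isH1

theorem fm_injective : Function.Injective (fm X b) := by
  refine (injective_iff_map_eq_zero _).2 fun w h => Subtype.ext (eq_zero_of_ev (X := X) b
    fun i x hx a => ?_)
  have h1 := congrArg (co a) (fm_apply b w ((X.A.e i).map_source hx))
  rw [co_sum, (X.A.e i).left_inv hx, h] at h1
  exact h1.symm.trans (map_zero _)

/-- **holomorphic one-forms are regular one-forms** -/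
theorem mem_range_fm : u ∈ LinearMap.range (fm X b) ↔ IsH1 u := by
  refine ⟨fun ⟨w, h⟩ => h ▸ isH1_fm b w, fun h => ?_⟩
  obtain ⟨w, hw, h1⟩ := gaga1 b h.h1
  refine ⟨⟨w, hw⟩, FS.ext' fun i z hz => ?_⟩
  rw [fm_apply b _ hz, ← sum_co (h.1 i z hz)]
  refine Finset.sum_congr rfl fun a _ => ?_
  rw [← h1 i _ ((X.A.e i).map_target hz) a, (X.A.e i).right_inv hz]

include b in
theorem finrank_eq (S : Submodule ℂ (FS X.A)) (hS : ∀ u, u ∈ S ↔ IsH1 u) :
    finrank ℂ S = finrank ℂ (sv P).R1 := by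
  rw [show S = LinearMap.range (fm X b) from Submodule.ext fun u => (hS u).trans
    (mem_range_fm b).symm, LinearMap.finrank_range_of_inj (fm_injective b)]

include b in
theorem IsH1.eq_zero (h : IsH1 u) (h0 : (sv P).R1 = ⊥) : u = 0 := by
  obtain ⟨w, rfl⟩ := (mem_range_fm b).2 h
  rw [show w = 0 from Subtype.ext ((Submodule.mem_bot ℂ).1 (h0 ▸ w.2)), map_zero]

include b in
theorem R1_eq_bot (h : ∀ u : FS X.A, IsH1 u → u = 0) : (sv P).R1 = ⊥ :=
  eq_bot_iff.2 fun w hw => congrArg Subtype.val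
    (fm_injective (X := X) b (a₁ := ⟨w, hw⟩) (a₂ := 0) ((h _ (isH1_fm b _)).trans (map_zero _).symm))

end Crest.Agent.X262.Q74
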