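import Crest.Agent.X262.Q74.Hol
import Crest.Agent.X262.Kah.BunE
import Crest.Agent.X262.Kah.BrgA
import Crest.Agent.X262.Irr93.Hpq
import Crest.Agent.X262.Man.PM

/-!
# Row 262, COH (helper74): varieties without regular one-forms

* `ex_one`, `ex_odd` : closed one-forms (odd forms on a surface) in `FS X.A` are exact;
* `coh_one`, `coh_odd` : the same for real ambient forms on `ε.X`; `coh_one_XP`, `coh_odd_XP`.
-/

set_option autoImplicit false

open Set Module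
open scoped KaehlerDifferential

noncomputable section

namespace Crest.Agent.X262.Q74

open Crest.Agent.X277.Lef Crest.Agent.X277.AN.G1
open Crest.Agent.R275.Geo
open Crest.Agent.R208 Crest.Agent.R208.F Crest.Agent.R208.FI Crest.Agent.R208.CW Crest.Agent.R208.T
open Crest.Agent.X262.Kah Crest.Agent.X262.Kah.Fib
open Crest.Agent.X262.Coh (sv)
open Crest.Agent.X262.Man (Emb)

theorem exists_io {E : Type*} [NormedAddCommGroup E] [NormedSpace ℝ E] [FiniteDimensional ℝ E]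
    {c : Ext E} (h : IsDeg 1 c) : ∃ l, c = io l := by
  refine ⟨((AlternatingMap.ofSubsingleton ℝ E ℝ (0 : Fin 1)).symm (evA E 1 c)), ?_⟩
  rw [← sub_eq_zero]
  refine eq_zero_of_evA fun q => ?_
  rw [map_sub, sub_eq_zero]
  by_cases hq : q = 1
  · subst hq
    ext v
    rw [evA_io, AlternatingMap.ofSubsingleton_symm_apply_apply]
    exact congrArg _ (funext fun i => congrArg v (Subsingleton.elim _ _))
  · have h1 := (show IsDeg 0 (1 : Ext E) from IsDeg.iMulti (p := 0) Fin.elim0).io_mul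
      ((AlternatingMap.ofSubsingleton ℝ E ℝ (0 : Fin 1)).symm (evA E 1 c))
    rw [mul_one] at h1
    rw [h q hq, h1 q hq]

theorem pr_one {n : ℕ} {c : Ext (Cn n)} (h : IsDeg 1 c) :
    prZ 1 0 (Cx.ofR c) + prZ 0 1 (Cx.ofR c) = (Cx.ofR c : Fb n) := by
  obtain ⟨l, rfl⟩ := exists_io h
  rw [← cv_ofReal, cv_eq_sum]
  simp only [map_sum, map_add, map_smul, prZ_of_mem (dz_mem _), prZ_of_mem (dzb_mem _),
    ← Finset.sum_add_distrib]
  simp

/-- a Kaehler package of dimension two without holomorphic one-forms has no odd classes -/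
theorem KP_ex_odd {S : Type*} [AddCommGroup S] [Module ℂ S] (G : KP 2 S)
    (h0 : ∀ z, G.Ty 1 0 z → G.db z = 0 → z = 0) {a : S} (ha : G.d a = 0) (h1 : G.par a = -a) :
    G.Ex a := by
  obtain ⟨z, z1, z2, z3⟩ := G.exists_dec ha
  have h21 : ∀ v, G.PC 2 1 v → G.Ex v := fun v hv => by
    obtain ⟨y, y1, y2⟩ := G.hl_surj (p := 1) (q := 0) (r := 1) rfl hv
    rwa [h0 y y1.ty y1.db, map_zero, sub_zero] at y2
  have key : ∀ x ∈ box 2, G.Ex (z x) := by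
    rintro ⟨p, q⟩ hx
    rcases Int.even_or_odd (p + q) with he | ho
    · have h2 := LinearMap.congr_fun (G.pr_dg (fun p q => (-1 : ℂ) ^ (p + q)) p q) a
      change G.pr p q (G.par a) = ((-1 : ℂ) ^ (p + q)) • G.pr p q a at h2
      rw [h1, he.neg_one_zpow, one_smul, map_neg, neg_eq_iff_add_eq_zero, ← two_smul ℂ,
        smul_eq_zero] at h2
      rw [z2 _ (h2.resolve_left two_ne_zero)]
      exact KA.Ex.zero
    · obtain ⟨⟨a1, a2⟩, a3, a4⟩ := mem_box.1 hx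
      obtain ⟨k, hk⟩ := ho
      have : (p = 1 ∧ q = 0) ∨ (p = 0 ∧ q = 1) ∨ (p = 2 ∧ q = 1) ∨ (p = 1 ∧ q = 2) := by omega
      rcases this with ⟨rfl, rfl⟩ | ⟨rfl, rfl⟩ | ⟨rfl, rfl⟩ | ⟨rfl, rfl⟩
      · rw [h0 _ (z1 (1, 0)).ty (z1 (1, 0)).db]
        exact KA.Ex.zero
      · rw [← G.cj_cj (z _), h0 _ (z1 (0, 1)).cj.ty (z1 (0, 1)).cj.db, map_zero]
        exact KA.Ex.zero
      · exact h21 _ (z1 (2, 1))
      · rw [← G.cj_cj (z _)]
        exact (h21 _ (z1 (1, 2)).cj).cj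
  have h3 := z3.add (Finset.sum_induction z G.Ex (fun _ _ => KA.Ex.add) KA.Ex.zero key)
  rwa [sub_add_cancel] at h3

variable {F : Type} [Field F] [Algebra ℂ F] {P : PModel ℂ F} {n : ℕ}

/-- the Kaehler package of the Fubini-Study metric -/
abbrev kpX (X : AnP P n) : KP n (FS X.A) := kp X.PA (R273.FS_333.fsKah X.Pr)

theorem hol_zero {X : AnP P n} (b : Basis (Fin n) F Ω[F⁄ℂ]) (h0 : (sv P).R1 = ⊥) (z : FS X.A)
    (h1 : (kpX X).Ty 1 0 z) (h2 : (kpX X).db z = 0) : z = 0 :=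
  IsH1.eq_zero b ⟨(KF.kp_Ty _ _ (p := 1) (q := 0)).1 h1, h2⟩ h0

theorem ex_one {X : AnP P n} (b : Basis (Fin n) F Ω[F⁄ℂ]) (h0 : (sv P).R1 = ⊥) {a : FS X.A}
    (ha : dF X.A a = 0) (h1 : ∀ i, ∀ z ∈ (X.A.e i).target,
      prZ 1 0 (a.1 i z) + prZ 0 1 (a.1 i z) = a.1 i z) : ∃ v, dF X.A v = a := by
  obtain ⟨v, hv⟩ := (kpX X).ex_one (hol_zero b h0) ((KF.kp_d _ _ a).trans ha) (FS.ext' h1)
  exact ⟨v, (KF.kp_d _ _ v).symm.trans hv⟩

theorem ex_odd {X : AnP P 2} (b : Basis (Fin 2) F Ω[F⁄ℂ]) (h0 : (sv P).R1 = ⊥) {a : FS X.A}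
    (ha : dF X.A a = 0) (h1 : invF X.A a = -a) : ∃ v, dF X.A v = a := by
  obtain ⟨v, hv⟩ := KP_ex_odd (kpX X) (hol_zero b h0) ((KF.kp_d _ _ a).trans ha)
    ((KF.kp_par _ _ a).trans h1)
  exact ⟨v, (KF.kp_d _ _ v).symm.trans hv⟩

section Real

variable {M : Type} [TopologicalSpace M] [CompactSpace M] {A : Atl n M}
  {E : Type} [NormedAddCommGroup E] [NormedSpace ℝ E] [FiniteDimensional ℝ E] (ε : Emb A E)
  {u : E → Ext E}

omit [CompactSpace M] in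
theorem smo_ofR (hu : Sm ε.X u) : Smo ε.X fun x => Cx.ofR (u x) :=
  fun x hx => ⟨hu x hx, contDiffAt_const⟩

theorem dF_res (hu : Sm ε.X u) (hc : Cl ε.X u) : dF A (res0 ε _ (smo_ofR ε hu)) = 0 := by
  rw [← res0_d, ← res0_zero ε, res0_eq_iff]
  intro x hx
  rw [map_zero]
  refine Cx.ext (hc x hx) ?_
  change pb _ (F.d (fun _ => 0) x) = 0
  rw [d_const, map_zero]

theorem coh_of_dF (hu : Sm ε.X u) {v : FS A} (hv : dF A v = res0 ε _ (smo_ofR ε hu)) :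
    Coh ε.X u 0 := by
  obtain ⟨ξ, h, rfl⟩ := exists_res0 ε v
  rw [← res0_d, res0_eq_iff] at hv
  refine ⟨fun x => (ξ x).re, fun x _ => (h x).re, eqv_iff.2 fun x hx => ?_⟩
  rw [sub_zero]
  exact (congrArg Cx.re (hv x hx)).symm

end Real

variable {E : Type} [NormedAddCommGroup E] [NormedSpace ℝ E] [FiniteDimensional ℝ E]
  {u : E → Ext E}

/-- **closed one-forms are exact** -/
theorem coh_one {X : AnP P n} (b : Basis (Fin n) F Ω[F⁄ℂ]) (h0 : (sv P).R1 = ⊥) (ε : Emb X.A E)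
    (hu : Sm ε.X u) (hc : Cl ε.X u) (h1 : T.Hom 1 u) : Coh ε.X u 0 := by
  obtain ⟨v, hv⟩ := ex_one b h0 (dF_res ε hu hc) fun i z hz => by
    rw [res0_apply ε _ hz, show pullC (ε.par i) (fun x => Cx.ofR (u x)) z =
      Cx.ofR (pull (ε.par i) u z) from Cx.ext rfl (map_zero _)]
    exact pr_one ((h1 _).pb _)
  exact coh_of_dF ε hu hv

/-- **closed odd forms on a regular surface are exact** -/
theorem coh_odd {X : AnP P 2} (b : Basis (Fin 2) F Ω[F⁄ℂ]) (h0 : (sv P).R1 = ⊥) (ε : Emb X.A E)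
    (hu : Sm ε.X u) (hc : Cl ε.X u) (h1 : ∀ x, R208.F.inv (u x) = -u x) : Coh ε.X u 0 := by
  obtain ⟨v, hv⟩ := ex_odd b h0 (dF_res ε hu hc) (FS.ext' fun i z hz => by
    rw [invF_apply, FS.neg_apply, res0_apply ε _ hz, pullC, ← pbC_invC, ← map_neg]
    exact congrArg _ (Cx.ext (h1 _) (by simp)))
  exact coh_of_dF ε hu hv

theorem coh_one_XP (h0 : (sv P).R1 = ⊥) {u : Man.Hm P.N → Ext (Man.Hm P.N)}
    (hu : Sm (Man.XP P) u) (hc : Cl (Man.XP P) u) (h1 : T.Hom 1 u) : Coh (Man.XP P) u 0 := by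
  obtain ⟨b⟩ := exists_basis P
  obtain ⟨X⟩ := nonempty_AnP P b
  exact coh_one b h0 (Man.emb X) hu hc h1

theorem coh_odd_XP (hd : (sv P).dim = 2) (h0 : (sv P).R1 = ⊥) {u : Man.Hm P.N → Ext (Man.Hm P.N)}
    (hu : Sm (Man.XP P) u) (hc : Cl (Man.XP P) u) (h1 : ∀ x, R208.F.inv (u x) = -u x) :
    Coh (Man.XP P) u 0 := by
  have := finite_kaehler P
  have b : Basis (Fin 2) F Ω[F⁄ℂ] := Module.finBasisOfFinrankEq F _ hd
  obtain ⟨X⟩ := nonempty_AnP P b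
  exact coh_odd b h0 (Man.emb X) hu hc h1

end Crest.Agent.X262.Q74
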