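import Crest.Agent.X262.Kah.ClsT
import Crest.Agent.X262.Chn.Defs
import Crest.Agent.X262.Brg.Hyp0

/-!
# Row 262, COH (helper74): hypersurfaces as complex manifolds

* `hyp_dim`      : the dimension of a hypersurface;
* `eval_Pr`      : the homogeneous coordinates satisfy the equation;
* `typH_ne_bot`  : a nonzero Dolbeault class gives a nonzero class of the same type;
* `Core31`, `h31_of`, `h31Stmt_of` : the analytic statement which gives `H^{3,1} ≠ 0` for a smooth cubic;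
* `Lft`, `lft`, `CoreL`, `h31Stmt_ofL` : the same with the lifts read in the charts.
-/

set_option autoImplicit false

open Set Module MvPolynomial
open scoped KaehlerDifferential

noncomputable section

namespace Crest.Agent.X262.Q74

open Crest.Agent.X277 Crest.Agent.X277.Lef Crest.Agent.X277.AN.G1
open Crest.Agent.R275.Geo Crest.Agent.R275.Core144 Crest.Agent.R273.Defs_333
open Crest.Agent.X262.Kah Crest.Agent.X262.Brg
open Crest.Agent.X262.Man (Emb em an emb)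
open Crest.Agent.X262.Top (Hyp SmCub)

variable {K : Type} [Field K] [Algebra ℂ K] {N d : ℕ}

theorem aeval_div {G : MvPolynomial (Fin (N + 1)) ℂ} (Y : Hyp N G K) (i : Fin (N + 1))
    {q : MvPolynomial (Fin (N + 1)) ℂ} (hq : q.IsHomogeneous d) :
    aeval (fun j => Y.y j / Y.y i) q = 0 ↔ G ∣ q := by
  rw [show (fun j => Y.y j / Y.y i) = (Y.y i)⁻¹ • Y.y from funext fun j => div_eq_inv_mul _ _,
    Hyp0.aeval_smul hq, mul_eq_zero, or_iff_right (pow_ne_zero _ (inv_ne_zero (Y.y_ne i))),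
    Y.ker _ _ hq]

/-- the dimension of a hypersurface -/
theorem hyp_dim {G : MvPolynomial (Fin (N + 2)) ℂ} (Y : Hyp (N + 1) G K) (hG : G.IsHomogeneous d)
    (h0 : G ≠ 0) : BD.dim ℂ K = N := by
  let x : Fin (N + 1) → K := fun i => Y.y i.succ / Y.y 0
  have e : (Fin.cons 1 x : Fin (N + 2) → K) = fun j => Y.y j / Y.y 0 := funext fun j =>
    Fin.cases (div_self (Y.y_ne 0)).symm (fun _ => rfl) j
  have hk : RingHom.ker (aeval x : MvPolynomial (Fin (N + 1)) ℂ →ₐ[ℂ] K) =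
      Ideal.span {Cubic.deh G} := by
    ext p
    rw [RingHom.mem_ker, Ideal.mem_span_singleton]
    refine ⟨fun hp => ?_, ?_⟩
    · rw [← Cubic.deh_hom (le_refl p.totalDegree), ← Hyp0.aeval_cons, e,
        aeval_div Y 0 (Cubic.hom_isHomogeneous _ p)] at hp
      exact Cubic.deh_hom (le_refl p.totalDegree) ▸ map_dvd Cubic.deh hp
    · rintro ⟨r, rfl⟩
      rw [map_mul, ← Hyp0.aeval_cons, e, (aeval_div Y 0 hG).2 dvd_rfl, zero_mul]
  have h1 : Cubic.deh G ≠ 0 := fun h =>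
    h0 (Cubic.eq_of_deh hG (isHomogeneous_zero _ _ d) (by rw [h, map_zero]))
  have h2 : Prime (Cubic.deh G) :=
    (Ideal.span_singleton_prime h1).1 (hk ▸ RingHom.ker_isPrime _)
  have h3 : (aeval x : MvPolynomial (Fin (N + 1)) ℂ →ₐ[ℂ] K).range = Y.P.A 0 := by
    rw [← Algebra.adjoin_range_eq_range_aeval]
    refine le_antisymm (Algebra.adjoin_mono ?_) (Algebra.adjoin_le ?_)
    · rintro _ ⟨i, rfl⟩
      exact ⟨i.succ, rfl⟩
    · rintro _ ⟨j, rfl⟩
      refine Fin.cases ?_ (fun i => Algebra.subset_adjoin ⟨i, rfl⟩) j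
      simp only [div_self (Y.y_ne 0)]
      exact one_mem _
  have h4 := (((Ideal.quotientEquivAlgOfEq ℂ hk.symm).trans
    (Ideal.quotientKerEquivRange _)).trans (Subalgebra.equivOfEq _ _ h3)).trdeg_eq
  have := finite_kaehler Y.P
  have := Y.P.isFractionRing 0
  rw [Cubic.trdeg_quot h2, ← Cubic.trdeg_frac ℂ (Y.P.A 0) K, Jet.trdeg_eq] at h4
  exact_mod_cast h4.symm

theorem SmCub.ne_zero {G : MvPolynomial (Fin 6) ℂ} (hG : SmCub G) : G ≠ 0 := by
  rintro rfl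
  obtain ⟨i, hi⟩ := hG.2 1 one_ne_zero (map_zero _)
  simp at hi

theorem cub_dim {G : MvPolynomial (Fin 6) ℂ} (Y : Hyp 5 G K) (hG : SmCub G) : BD.dim ℂ K = 4 :=
  hyp_dim (N := 4) Y hG.1 (SmCub.ne_zero hG)

/-- the homogeneous coordinates satisfy the equation -/
theorem eval_Pr {G : MvPolynomial (Fin (N + 1)) ℂ} {Y : Hyp N G K} (hG : G.IsHomogeneous d) {n : ℕ}
    (X : AnP Y.P n) (α : X.A.ι) (x : Pts Y.P) (hx : x ∈ (X.A.e α).source) :
    eval (X.Pr.F α x) G = 0 := by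
  have h := ev_aeval (X.sub α x hx) G
  rw [(aeval_div Y _ hG).2 dvd_rfl, ← funext (ev_y (X.sub α x hx))] at h
  exact h.symm.trans (lp x).v_zero

section

variable {n : ℕ} {M : Type} [TopologicalSpace M] [T2Space M] [CompactSpace M] {A : Atl n M}
  [Finite A.ι] {E : Type} [NormedAddCommGroup E] [NormedSpace ℝ E] [FiniteDimensional ℝ E]

/-- if there is no class of type `(p, q + 1)`, `∂̄`-closed forms of this type are `∂̄`-exact -/
theorem db_exact (ε : Emb A E) (k : KF A) (P : Part A) {p q : ℕ} (he : Even (p + (q + 1)))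
    (h : typH ε p (q + 1) = ⊥) {u : FS A} (hu : TyF p (q + 1) u) (h0 : dbF A u = 0) :
    ∃ v, TyF p q v ∧ dbF A v = u := by
  obtain ⟨z, y, h1, h2, h3⟩ := (k.kp P).dolb ((k.kp_Ty P).2 hu) h0
  have hz := (k.kp_Ty P).1 h1.ty
  have h4 : toH ε ⟨z, hz.mem_ZF he ((k.kp_d P z).symm.trans h1.cl)⟩ = 0 :=
    (Submodule.eq_bot_iff _).1 h _ ⟨_, hz, rfl⟩
  obtain ⟨w, hw⟩ := (toH_eq_zero_iff ε).1 h4
  obtain ⟨γ, h5, h6⟩ := (k.kp P).ddbar h1 ⟨w, (k.kp_d P w).trans hw⟩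
  have h7 := (k.kp P).ty_del h5
  rw [sub_add_cancel] at h7
  have h8 := h2.sub h7
  rw [show ((q + 1 : ℕ) : ℤ) - 1 = q by omega] at h8
  refine ⟨_, (k.kp_Ty P).1 h8, ?_⟩
  change (k.kp P).db _ = _
  rw [map_sub, h3, ← h6, (k.kp P).db_del, add_comm, sub_neg_eq_add]

theorem typH_ne_bot (ε : Emb A E) (k : KF A) (P : Part A) {p q : ℕ} (he : Even (p + (q + 1)))
    {u : FS A} (hu : TyF p (q + 1) u) (h0 : dbF A u = 0)
    (h : ∀ v, TyF p q v → dbF A v ≠ u) : typH ε p (q + 1) ≠ ⊥ := fun h1 => by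
  obtain ⟨v, h2, h3⟩ := db_exact ε k P he h1 hu h0
  exact h v h2 h3

end

/-- the analytic core: a nonzero Dolbeault class of type `(3,1)` -/
def Core31 : Prop := ∀ (M : Type) [TopologicalSpace M] [T2Space M] [CompactSpace M]
  [ConnectedSpace M] (A : Atl 4 M) [Finite A.ι] (Z : A.ι → M → Fin 6 → ℂ)
  (G : MvPolynomial (Fin 6) ℂ), SmCub G → (∀ i k, HolAt A i univ fun x => Z i x k) →
  (∀ i, ∀ x ∈ (A.e i).source, Z i x ≠ 0) →
  (∀ i j, ∀ x ∈ (A.e i).source ∩ (A.e j).source, ∃ c : ℂ, Z i x = c • Z j x) →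
  (∀ i, ∀ z ∈ (A.e i).target, ∀ v : Cn 4, (∃ c : ℂ, fderiv ℂ (fun w => Z i ((A.e i).symm w)) z v =
    c • Z i ((A.e i).symm z)) → v = 0) →
  (∀ i, ∀ x ∈ (A.e i).source, eval (Z i x) G = 0) →
    ∃ u : FS A, TyF 3 1 u ∧ dbF A u = 0 ∧ ∀ v, TyF 3 0 v → dbF A v ≠ u

theorem h31_emb (h : Core31) {G : MvPolynomial (Fin 6) ℂ} {Y : Hyp 5 G K} (hG : SmCub G) {n : ℕ}
    (X : AnP Y.P n) : typH (emb X) 3 1 ≠ ⊥ := by
  obtain rfl : 4 = n := (cub_dim Y hG).symm.trans (Man.dim_eq X)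
  have := Man.connectedP Y.P
  obtain ⟨u, h1, h2, h3⟩ := h _ X.A X.Pr.F G hG X.Pr.hol X.Pr.ne X.Pr.tr X.Pr.imm
    (eval_Pr hG.1 X)
  exact typH_ne_bot (q := 0) _ (KF.ofKah (R273.FS_333.fsKah X.Pr)) X.PA (by decide) h1 h2 h3

theorem h31_of (h : Core31) {G : MvPolynomial (Fin 6) ℂ} (Y : Hyp 5 G K) (hG : SmCub G) :
    typH (em Y.P) 3 1 ≠ ⊥ := h31_emb h hG _

theorem h31Stmt_of (h : Core31) (c1 : ∀ X : Coh.SV, BD ℂ X.F → Man.HP X.P)
    (Lam : ∀ X : Coh.SV, AddSubgroup (Man.HP X.P)) : Chn.H31Stmt (Man.thOf typP c1 Lam) :=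
  fun _ hG _ _ _ Y => h31_of h Y hG

/-! ### local lifts read in the charts -/

/-- local holomorphic lifts of a smooth hypersurface -/
structure Lft {n N : ℕ} {M : Type} [TopologicalSpace M] (A : Atl n M)
    (G : MvPolynomial (Fin N) ℂ) where
  /-- the lifts -/
  Z : A.ι → Cn n → Fin N → ℂ
  /-- the coordinate which is one -/
  r : A.ι → Fin N
  hol : ∀ i, ∀ z ∈ (A.e i).target, ∀ k, AnalyticAt ℂ (fun w => Z i w k) z
  tr : ∀ i j, ∀ z ∈ A.ov i j, ∀ a b, Z j (tr A i j z) a * Z i z b = Z j (tr A i j z) b * Z i z a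
  one : ∀ i, ∀ z ∈ (A.e i).target, Z i z (r i) = 1
  zero : ∀ i, ∀ z ∈ (A.e i).target, eval (Z i z) G = 0
  ind : ∀ i, ∀ z ∈ (A.e i).target, ∀ (c : ℂ) (t : Fin n → ℂ),
    (∀ k, c * Z i z k + ∑ a, t a * fderiv ℂ (fun w => Z i w k) z (Fib.ep a) = 0) → c = 0 ∧ t = 0
  grad : ∀ i, ∀ z ∈ (A.e i).target, ∃ k, eval (Z i z) (pderiv k G) ≠ 0

/-- the lifts of a smooth cubic -/
def lft {G : MvPolynomial (Fin 6) ℂ} {Y : Hyp 5 G K} (hG : SmCub G) {n : ℕ} (X : AnP Y.P n) :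
    Lft X.A G where
  Z i w := X.Pr.F i ((X.A.e i).symm w)
  r := X.r
  hol i z hz k := by
    have hx := (X.A.e i).map_target hz
    have h := AnP.analyticAt_ev hx (y_mem (X.sub i _ hx) k)
    rwa [(X.A.e i).right_inv hz] at h
  tr i j z hz a b := by
    obtain ⟨c, hc⟩ := X.Pr.tr i j _ ⟨(X.A.e i).map_target hz.1, hz.2⟩
    rw [symm_tr hz, hc, Pi.smul_apply, Pi.smul_apply, smul_eq_mul, smul_eq_mul]
    ring
  one i z _ := by
    rw [AnP.Pr_F, div_self (Y.y_ne _)]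
    exact LP.v_one _
  zero i z hz := eval_Pr hG.1 X i _ ((X.A.e i).map_target hz)
  ind i z hz c t h := by
    have hx := (X.A.e i).map_target hz
    have hd : ∀ k, DifferentiableAt ℂ (fun w => X.Pr.F i ((X.A.e i).symm w) k) z := fun k => by
      have h := AnP.diffAt hx (y_mem (X.sub i _ hx) k)
      rwa [(X.A.e i).right_inv hz] at h
    have h1 := X.Pr.imm i z hz (∑ a, t a • Fib.ep a) ⟨-c, funext fun k => by
      rw [fderiv_pi hd, ContinuousLinearMap.pi_apply, map_sum, Pi.smul_apply, smul_eq_mul,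
        neg_mul, eq_neg_iff_add_eq_zero, add_comm]
      simpa only [map_smul, smul_eq_mul] using h k⟩
    have h2 : t = 0 := funext fun a => by
      simpa [Fib.ep_apply, Finset.sum_apply] using congrArg (fun v : Cn n => v a) h1
    obtain ⟨k, hk⟩ := Function.ne_iff.1 (X.Pr.ne i _ hx)
    have h3 := h k
    simp only [h2, Pi.zero_apply, zero_mul, Finset.sum_const_zero, add_zero] at h3
    exact ⟨(mul_eq_zero.1 h3).resolve_right hk, h2⟩
  grad i z hz := hG.2 _ (X.Pr.ne i _ ((X.A.e i).map_target hz))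
    (eval_Pr hG.1 X i _ ((X.A.e i).map_target hz))

/-- the analytic core in terms of lifts -/
def CoreL : Prop := ∀ (M : Type) [TopologicalSpace M] [T2Space M] [CompactSpace M]
  [ConnectedSpace M] (A : Atl 4 M) [Finite A.ι] (G : MvPolynomial (Fin 6) ℂ) (_ : Lft A G)
  (E : Type) [NormedAddCommGroup E] [NormedSpace ℝ E] [FiniteDimensional ℝ E] (ε : Emb A E)
  (_ : KF A) (_ : Part A), G.IsHomogeneous 3 → typH ε 3 1 ≠ ⊥

theorem h31_embL (h : CoreL) {G : MvPolynomial (Fin 6) ℂ} {Y : Hyp 5 G K} (hG : SmCub G) {n : ℕ}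
    (X : AnP Y.P n) : typH (emb X) 3 1 ≠ ⊥ := by
  obtain rfl : 4 = n := (cub_dim Y hG).symm.trans (Man.dim_eq X)
  have := Man.connectedP Y.P
  exact h _ X.A G (lft hG X) _ _ (KF.ofKah (R273.FS_333.fsKah X.Pr)) X.PA hG.1

theorem h31Stmt_ofL (h : CoreL) (c1 : ∀ X : Coh.SV, BD ℂ X.F → Man.HP X.P)
    (Lam : ∀ X : Coh.SV, AddSubgroup (Man.HP X.P)) : Chn.H31Stmt (Man.thOf typP c1 Lam) :=
  fun _ hG _ _ _ _ => h31_embL h hG _

end Crest.Agent.X262.Q74
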